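import Vale.Agent.P050.Ordered

/-!
P050: Sidorenko's inequality for every bipartite graph against targets whose prime parts have a
sublattice adjacency relation, against totally positive kernels, and against kernels of rank two.
-/

noncomputable section

namespace Vale.Agent.Results.P050.LatticeTargets

open Vale.Agent.P050
open scoped Classical

/-- See the module docstring. -/
theorem result :
    ((∀ (V W : Type) [Fintype V] [Fintype W] [Nonempty W] (H : SimpleGraph V) (G : SimpleGraph W),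
        H.Colorable 2 → H.edgeSet.Nonempty → Ineq H G) ↔
      ∀ (V W : Type) [Fintype V] [Fintype W] [Nonempty W] (H : SimpleGraph V) (G : SimpleGraph W),
        H.Colorable 2 → H.edgeSet.Nonempty → G.Connected → Gᶜ.Connected → Ineq H G) ∧
    (∀ (V W : Type) [Fintype V] [Fintype W] [Nonempty W] (H : SimpleGraph V) (G : SimpleGraph W),
        H.Colorable 2 →
        (∀ X : Set W, X.Nontrivial → (G.induce X).Connected → (G.induce X)ᶜ.Connected →
          ∃ (n : ℕ) (α β : X → Fin n → Bool),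
            (Function.Injective α ∧ (∀ x y, ∃ z, α z = α x ⊔ α y) ∧
              ∀ x y, ∃ z, α z = α x ⊓ α y) ∧
            (Function.Injective β ∧ (∀ x y, ∃ z, β z = β x ⊔ β y) ∧
              ∀ x y, ∃ z, β z = β x ⊓ β y) ∧
            ∀ x x' u v y y' s t, α u = α x ⊔ α x' → α v = α x ⊓ α x' → β s = β y ⊔ β y' →
              β t = β y ⊓ β y' → G.Adj x y → G.Adj x' y' → G.Adj u s ∧ G.Adj v t) →
          Ineq H G) ∧
    (∀ (V S : Type) [Fintype V] [DecidableEq V] [Fintype S] (E : Finset (V × V)) (side : V → Bool),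
      (∀ e ∈ E, side e.1 = false ∧ side e.2 = true) →
      ∀ (n : ℕ) (σ τ : S ≃ Fin n) (q : S → ℝ) (K : S → S → ℝ),
        (∀ x, 0 ≤ q x) → ∑ x, q x = 1 → (∀ x y, 0 ≤ K x y) →
        (∀ x x' y y', σ x ≤ σ x' → τ y ≤ τ y' → K x y' * K x' y ≤ K x y * K x' y') →
          (∑ x, ∑ y, q x * q y * K x y) ^ E.card ≤
            ∑ f : V → S, (∏ v, q (f v)) * ∏ e ∈ E, K (f e.1) (f e.2)) ∧
    ∀ (V S : Type) [Fintype V] [DecidableEq V] [Fintype S] (E : Finset (V × V)) (side : V → Bool),
      (∀ e ∈ E, side e.1 = false ∧ side e.2 = true) →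
      ∀ (q u w : S → ℝ) (s t : ℝ),
        (∀ x, 0 ≤ q x) → ∑ x, q x = 1 → (∀ x, 0 < u x) →
        (∀ x y, 0 ≤ s * u x * u y + t * w x * w y) →
          (∑ x, ∑ y, q x * q y * (s * u x * u y + t * w x * w y)) ^ E.card ≤
            ∑ f : V → S, (∏ v, q (f v)) *
              ∏ e ∈ E, (s * u (f e.1) * u (f e.2) + t * w (f e.1) * w (f e.2)) := by
  refine ⟨⟨fun h V W _ _ _ H G hH hne _ _ => h V W H G hH hne, fun h V W _ _ _ H G hH _ =>
      ineq_of_prime hH fun X hX c1 c2 H' hle hne => by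
        have : Nonempty (X : Set W) := c1.nonempty
        exact h V _ H' _ (hH.mono_left hle) hne c1 c2⟩,
    fun V W _ _ _ H G hH hG => ineq_of_prime hH fun X hX c1 c2 H' hle _ => ?_,
    fun V S _ _ _ E side hE n σ τ q K hq sq hK h => Lattice.tp2 hE σ τ hq sq hK h,
    fun V S _ _ _ E side hE q u w s t hq sq hu h => Lattice.rank_two hE hq sq hu h⟩
  have : Nonempty (X : Set W) := c1.nonempty
  obtain ⟨n, α, β, ⟨a1, a2, a3⟩, ⟨b1, b2, b3⟩, h⟩ := hG (X : Set W) (by
    obtain ⟨a, ha, b, hb, hab⟩ := Finset.one_lt_card.1 (show 1 < X.card by omega)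
    exact ⟨a, ha, b, hb, hab⟩) c1 c2
  exact Lattice.ineq_of_adm (hH.mono_left hle) ⟨n, α, β, ⟨a1, a2, a3⟩, ⟨b1, b2, b3⟩, h⟩

end Vale.Agent.Results.P050.LatticeTargets
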